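import Vale.Agent.Lib.P362.P.All
import Vale.Agent.Lib.P362.Law.Main

/-! P362: `alpha_tot = 4`. -/

theorem Vale.Agent.Results.P362.AlphaTot.result :
    P362.alphaTot = 4 ∧
    (∃ C : ℝ, ∀ n : ℕ, 1 ≤ n → ∀ f : (Fin n → Bool) → Bool,
      (P362.RQ f : ℝ) ≤ C * (1 + (P362.QQ f : ℝ)) ^ (4 : ℕ)) ∧
    (∀ α : ℝ, 0 ≤ α → α < 4 → ∀ C : ℝ, ∃ n : ℕ, 1 ≤ n ∧ ∃ f : (Fin n → Bool) → Bool,
      C * (1 + (P362.QQ f : ℝ)) ^ α < P362.RQ f) ∧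
    (∀ n : ℕ, 1 ≤ n → ∀ f : (Fin n → Bool) → Bool,
      P362.RandComputes (P362.RQ f) f ∧ P362.QuantComputes (P362.QQ f) f) :=
  P362.main_of_law P362.partLaw
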