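import Vale.Agent.Lib.P362.P.All
import Vale.Agent.Lib.P362.Law.Main

/-! P362: `alpha_tot = 4`. -/

theorem Vale.Agent.Results.P362.Equality.result : P362.alphaTot = 4 :=
  (P362.main_of_law P362.partLaw).1
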