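import Vale.Agent.Lib.P362D.Bridge
import Vale.Agent.Lib.P362.P.All
import Vale.Agent.Lib.P362.Law.Main

/-!
P362: `α_tot = 4`, with adaptive strategies, random seeds and products of matrices.
-/

namespace Vale.Agent.Results.P362.OptimalExponent

open _root_.P362D

/-- `α_tot = 4`: the infimum of the admissible exponents `α ≥ 0` is `4`, and it is attained.  The
last part says that `R(f)` and `Q(f)` exist for all `f`. -/
theorem result :
    sInf {α : ℝ | 0 ≤ α ∧ Exponent α} = 4 ∧ Exponent 4 ∧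
      ∀ n : ℕ, 1 ≤ n → ∀ f : (Fin n → Bool) → Bool,
        (∃ R, IsLeast {T : ℕ | Randomized f T} R) ∧ ∃ Q, IsLeast {T : ℕ | Quantum f T} Q := by
  obtain ⟨h1, h2, -, h4⟩ := _root_.P362.main_of_law _root_.P362.partLaw
  have hR : ∀ n : ℕ, 1 ≤ n → ∀ f : (Fin n → Bool) → Bool,
      IsLeast {T : ℕ | Randomized f T} (_root_.P362.RQ f) := fun n hn f =>
    ⟨(randComputes_iff hn f _).2 (h4 n hn f).1,
      fun T hT => Nat.sInf_le ((randComputes_iff hn f T).1 hT)⟩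
  have hQ : ∀ n : ℕ, 1 ≤ n → ∀ f : (Fin n → Bool) → Bool,
      IsLeast {T : ℕ | Quantum f T} (_root_.P362.QQ f) := fun n hn f =>
    ⟨(quantComputes_iff f _).2 (h4 n hn f).2,
      fun T hT => Nat.sInf_le ((quantComputes_iff f T).1 hT)⟩
  have hset : {α : ℝ | 0 ≤ α ∧ Exponent α} = {α : ℝ | 0 ≤ α ∧ ∃ C : ℝ, ∀ n : ℕ, 1 ≤ n →
      ∀ f : (Fin n → Bool) → Bool,
        (_root_.P362.RQ f : ℝ) ≤ C * (1 + (_root_.P362.QQ f : ℝ)) ^ α} := by
    ext α
    constructor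
    · rintro ⟨h0, C, hC⟩
      exact ⟨h0, C, fun n hn f => hC n hn f _ _ (hR n hn f) (hQ n hn f)⟩
    · rintro ⟨h0, C, hC⟩
      refine ⟨h0, C, fun n hn f R Q h5 h6 => ?_⟩
      rw [h5.unique (hR n hn f), h6.unique (hQ n hn f)]
      exact hC n hn f
  refine ⟨by rw [hset]; exact h1, ?_, fun n hn f => ⟨⟨_, hR n hn f⟩, ⟨_, hQ n hn f⟩⟩⟩
  obtain ⟨C, hC⟩ := h2
  refine ⟨C, fun n hn f R Q h5 h6 => ?_⟩
  rw [h5.unique (hR n hn f), h6.unique (hQ n hn f)]
  have h7 := hC n hn f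
  exact_mod_cast h7

end Vale.Agent.Results.P362.OptimalExponent
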